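import Vale.Agent.P011N.Cl.Top

namespace Vale.Agent.Results.P011.AAAAMargulisPlatonovForms

open Vale.Agent.P011.H925.Full Vale.Agent.P011.H900 Vale.Agent.P011N.Cl
open Vale.Agent.P011N.F (MP)

/-- **The Margulis-Platonov conjecture over global fields**, for arbitrary normal subgroups, for
all groups for which it was open: the anisotropic outer forms of type `A` over global fields (first
clause) and, over number fields, all anisotropic trialitarian forms of `Spin₈` (second clause) and
all anisotropic forms of the simply connected group of type `E₆` (third clause). -/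
theorem result {k K A Ω : Type} [Field k] [Field K] [Algebra k K] [StarRing K] [Ring A]
    [StarRing A] [Algebra k A] [Algebra K A] [IsScalarTower k K A] [StarModule K A]
    [Field Ω] [Algebra K Ω] {n : ℕ} (f : A →ₐ[K] Matrix (Fin n) (Fin n) Ω)
    (F : Type) [Field F] [NumberField F] :
    (Uni k K A n → ∃ δ : GK f →* HA k K A n, (∀ g, Diag g.1.1 (δ g)) ∧ MP δ) ∧
      Forms F (Spin F) Trial ∧ Forms F (E6 F) fun _ => True :=
  ⟨topA f, fun _ => top4 P011N.F.clD3 P011N.F.clD6, fun _ h _ => top6 h⟩

end Vale.Agent.Results.P011.AAAAMargulisPlatonovForms
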