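import Vale.Agent.P011N.Cl.Top

namespace Vale.Agent.Results.P011.AAABFormsIndex

open Vale.Agent.P011.H925.Full Vale.Agent.P011.H900 Vale.Agent.P011N Vale.Agent.P011N.Cl
open Vale.Agent.P011N.F (MP)

/-- **The Margulis-Platonov conjecture** for all groups for which it was open, for arbitrary normal
subgroups: the anisotropic outer forms of type `A` over global fields, where moreover every subgroup
of finite index, normal or not, is the preimage of an open subgroup (first clause) and, over number
fields, all anisotropic trialitarian forms of `Spin₈` (second clause) and all anisotropic forms of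
the simply connected group of type `E₆` (third clause). -/
theorem result {k K A Ω : Type} [Field k] [Field K] [Algebra k K] [StarRing K] [Ring A]
    [StarRing A] [Algebra k A] [Algebra K A] [IsScalarTower k K A] [StarModule K A]
    [Field Ω] [Algebra K Ω] {n : ℕ} (f : A →ₐ[K] Matrix (Fin n) (Fin n) Ω)
    (F : Type) [Field F] [NumberField F] :
    (Uni k K A n → ∃ δ : GK f →* HA k K A n, (∀ g, Diag g.1.1 (δ g)) ∧ MP δ ∧ Q1 δ) ∧
      Forms F (Spin F) Trial ∧ Forms F (E6 F) fun _ => True := by
  refine ⟨fun h => ?_, fun _ => top4 P011N.F.clD3 P011N.F.clD6, fun _ h _ => top6 h⟩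
  have h' : AnisA k K A n := ⟨h.fixed, h.star_ne, h.central, h.simple, h.le, h.rank, h.aniso⟩
  rcases h.global with hk | hk
  · obtain ⟨δ, h1, h2⟩ := X1.clauseA_all h' f
    exact ⟨δ, h1, P011N.F.mp_of h2 (A1.mfnf k K A Ω n f h').1, h2⟩
  · obtain ⟨δ, h1, h2⟩ := q1_of (st := stLin h.fixed) (fun _ => rfl)
      (old_ffa hk ⟨h.fixed, h.star_ne, h.central, h.simple, h.rank, h.aniso⟩ h.le f)
    exact ⟨δ, h1, P011N.F.mp_of h2 (P011N.F.mfff k K A Ω n f hk h'), h2⟩

end Vale.Agent.Results.P011.AAABFormsIndex
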