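import Vale.Agent.P011N.F.All

namespace Vale.Agent.Results.P011.AAAMargulisPlatonovNormal

open Vale.Agent.P011.H925.Full Vale.Agent.P011.H900 Vale.Agent.P011N.F

/-- **The Margulis-Platonov conjecture over global fields**, for arbitrary normal subgroups, for
all groups for which it was open: the anisotropic outer forms of type `A` (first clause) and, over
number fields, the anisotropic trialitarian groups (second and third clause) and the anisotropic
groups of type `E₆` (last three clauses). -/
theorem result {k K A Ω : Type} [Field k] [Field K] [Algebra k K] [StarRing K] [Ring A]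
    [StarRing A] [Algebra k A] [Algebra K A] [IsScalarTower k K A] [StarModule K A]
    [Field Ω] [Algebra K Ω] {n : ℕ} (f : A →ₐ[K] Matrix (Fin n) (Fin n) Ω)
    {F : Type} [Field F] [NumberField F] (r s i : F → F) (a b c d q e t : F) (g : Fin 3 → F) :
    (Anis k K A n →
      ∃ δ : GK f →* HA k K A n, (∀ g, Diag g.1.1 (δ g)) ∧ MP δ) ∧
    (Dat [r, s] r s a b c d q →
      Simple fun f : Oc a b → Oc a b => Tri c r f ∧ Twi c r s d q f) ∧
    (Dat [r, s, i] r s a b c d q → Aut 2 i → (∀ x, s (i x) = i (s x)) →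
      (∀ x, r (i (r x)) = i x) → i d = d → r (i q) = q →
      Simple fun f : Oc a b → Oc a b => Tri c r f ∧ Twi c r s d q f ∧ Swp i f) ∧
    (Aut 2 s → Dvn [s] [] a b c → (∀ i, s (g i) = g i) →
      (∀ x : Al a b, her c s g x x = 0 → x = 0) →
      Simple fun f : Al a b → Al a b => Cub c f ∧ Her c s g f) ∧
    (Aut 3 r → Dvn [r] [r] a b c → Nnm r e →
      Simple fun f : Al a b → Al a b => Cub c f ∧ Ph r e f) ∧
    (Aut 3 r → Aut 2 s → (∀ x, r (s x) = s (r x)) → Dvn [r, s] [r, s] a b c → Nnm r e →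
      Wei r s e t g → ((∀ x : Al a b, her c s g x x = 0 → x = 0) ∨ Dvn [r, s] [] a b c) →
      Simple fun f : Al a b → Al a b => Cub c f ∧ Her c s g f ∧ Ph r e f) :=
  ⟨clA f, fun h => simple_of (clD3 F r s a b c d q h),
    fun h1 h2 h3 h4 h5 h6 => simple_of (clD6 F r s i a b c d q h1 h2 h3 h4 h5 h6),
    fun h1 h2 h3 h4 => simple_of (clE1 F s a b c g h1 h2 h3 h4),
    fun h1 h2 h3 => simple_of (clE2 F r a b c e h1 h2 h3),
    fun h1 h2 h3 h4 h5 h6 h7 => simple_of (clE3A F r s a b c e t g h1 h2 h3 h4 h5 h6 h7)⟩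

end Vale.Agent.Results.P011.AAAMargulisPlatonovNormal
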